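import Vale.Agent.P275TB.Wh
import Vale.Agent.P275S.Tor

/-!
# P275, flat bundles: the pull-back to the product with the punctured line is graded
-/

open scoped Manifold ContDiff Topology
open Set Function Filter Topology
open Vale.Agent.P272.K Vale.Agent.P281Z.Hg Vale.Agent.P275MC Vale.Agent.P275FM
  Vale.Agent.P275XI Vale.Agent.P275B Vale.Agent.P275RG
open Vale.Agent.P281Z (HolM HolA Emb Imm Sbm imm_id imm_iff_sbm holM_id holM_const)
open Vale.Agent.P277Z (hol_const)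
open P275S (H Nz wind wind_pb wind_mul wind_exp wind_congr kunc)

noncomputable section

namespace Vale.Agent.P275TB

/-- `g` is a coordinate of the punctured line `G` -/
structure IsGm (G : Vr 1) (g : G.X → ℂ) : Prop where
  reg : Reg G.cp g
  emb : Emb 1 1 (fun y (_ : Fin 1) => g y) {v | v 0 ≠ 0}

theorem ex_gm : ∃ G g, IsGm G g := by
  let O : TopologicalSpace.Opens (Cm 1) := ⟨{v | v 0 ≠ 0}, isOpen_ne_fun (by fun_prop) (by fun_prop)⟩
  have h := opens_emb (n := 1) O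
  obtain ⟨c, F, k, -⟩ := (cA 1).compl (reg_crd 0).zc h
  refine ⟨⟨{ X := O }, c⟩, fun y => y.1 0, (reg_crd 0).ext k, ?_⟩
  rwa [show (fun (y : O) (_ : Fin 1) => y.1 0) = Subtype.val from
    funext fun y => funext fun i => congrArg y.1 (Subsingleton.elim _ _)]

namespace IsGm

variable {G : Vr 1} {g : G.X → ℂ} (h : IsGm G g)
include h

theorem ne (y : G.X) : g y ≠ 0 := (h.emb.rng ▸ mem_range_self y : _ ∈ {v : Cm 1 | v 0 ≠ 0})

theorem onto {w : ℂ} (hw : w ≠ 0) : ∃ y, g y = w :=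
  let ⟨y, e⟩ : (fun _ => w) ∈ range fun y (_ : Fin 1) => g y := h.emb.rng.symm ▸ hw
  ⟨y, congrFun e 0⟩

theorem isEmb : IsEmbedding g :=
  (Homeomorph.funUnique (Fin 1) ℂ).isEmbedding.comp (emb_open h.emb).isEmbedding

theorem alg {n : ℕ} {U : Type} [TopologicalSpace U] [ChartedSpace (Cm n) U]
    [IsManifold 𝓘(ℂ, Cm n) ω U] {c : Cp n U} {f : U → G.X} (k : Reg c fun x => g (f x)) :
    Alg c G.cp f :=
  alg_of_reg (fun _ => h.reg) (emb_open h.emb).isInducing h.emb.imm fun _ => k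

theorem ex_inv : ∃ ν : G.X → G.X, Alg G.cp G.cp ν ∧ ∀ y, g (ν y) = (g y)⁻¹ := by
  choose ν hν using fun y => h.onto (inv_ne_zero (h.ne y))
  exact ⟨ν, h.alg ((funext hν).symm ▸ h.reg.inv h.ne), hν⟩

theorem sbm (a : ℂ) (y : G.X) : Sbm 1 1 (fun y (_ : Fin 1) => g y - a) y :=
  imm_iff_sbm.1 (.of_comp (g := fun v i => v i + a)
    (holA_iff.2 fun i => (hol_crd i _).add (hol_const a _))
    (holA_iff.2 fun _ => (h.reg.sub (.const _ a)).hol y)
    ((h.emb.imm y).cng (.of_forall fun _ => funext fun _ => (sub_add_cancel _ _).symm)))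

end IsGm

theorem grd_kill {V V' U : Type*} [AddCommGroup V] [Module ℂ V] [AddCommGroup V'] [Module ℂ V']
    [AddCommGroup U] [Module ℂ U] {w : ℕ → Module.End ℂ V} {w' : ℕ → Module.End ℂ V'}
    {u : ℕ → Module.End ℂ U} (h' : IsGr w') (h'' : IsGr u) {s t : ℤ} {φ : V →ₗ[ℂ] V'}
    {χ : V' →ₗ[ℂ] U} (g : Grd w' u t χ) (g' : Grd w u (s + t) (χ ∘ₗ φ)) {q q' : ℕ} (x : V)
    (hq : (q' : ℤ) ≠ q + s) : χ (w' q' (φ (w q x))) = 0 := by
  by_cases e : q' + t < 0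
  · exact g.neg_deg h'' e _
  · rw [← g.comm h' h'' (q' := (q' + t).toNat) (by omega)]
    exact g' q _ x (by omega)

theorem grd_gm {X Y : Type*} [Ring X] [Algebra ℂ X] [Ring Y] [Algebra ℂ Y]
    {w : ℕ → Module.End ℂ X} {u : ℕ → Module.End ℂ Y} (hw : IsGr w) (hu : IsGr u) {p : X →ₐ[ℂ] Y}
    {ι : Y →ₐ[ℂ] Y} {s : Y →ₐ[ℂ] X} {θ : Y} (K : Bijective fun a : X × X => p a.1 + θ * p a.2)
    (e1 : ∀ a, ι (p a) = p a) (e2 : ∀ a, s (p a) = a) (e3 : ι θ = -θ)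
    (g1 : Grd u u 0 ι.toLinearMap) (g2 : Grd u w (-2) s.toLinearMap) : Grd w u 2 p.toLinearMap := by
  have inj : ∀ z, z + -ι z = 0 → s z = 0 → z = 0 := fun z k1 k2 => by
    obtain ⟨⟨a, a'⟩, rfl⟩ := K.2 z
    rw [add_neg_eq_zero, map_add, map_mul, e1, e1, e3, neg_mul, ← mul_neg, ← map_neg] at k1
    have k3 : a' = -a' := congrArg Prod.snd (K.1 (a₁ := (a, a')) (a₂ := (a, -a')) k1)
    obtain rfl : a' = 0 := by
      rw [eq_neg_iff_add_eq_zero, ← two_smul ℂ] at k3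
      exact (smul_eq_zero_iff_right two_ne_zero).1 k3
    simp only [map_zero, mul_zero, add_zero, e2] at k2 ⊢
    rw [k2, map_zero]
  exact fun q q' x hq => inj _ (grd_kill (w := w) hu hu (hu.grd_id.add g1.neg)
    (grd_congr Grd.zero rfl fun a => add_neg_eq_zero.2 (e1 a).symm) x hq)
    (grd_kill hu hw g2 (grd_congr hw.grd_id (by simp) e2) x hq)

/-- a map of flat bundles is determined by its action on the base and on the fibres -/
theorem hm_uniq {b b' d d' D D' : ℕ} {B : Mn b} {B' : Mn b'} {c : Cv B} {c' : Cv B'} {M : Vr d}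
    {M' : Vr d'} {β r} {F' : Fl c' M' D'} {F : Fl c M D} {f f' u u'} (a : Hm β r F' F f u)
    (a' : Hm β r F' F f' u') (e : f = f') (z : F'.T.X) : u z = u' z := by
  obtain ⟨i, hi⟩ := c'.cov (F'.q z)
  exact F.tv.ext' (i := r i) ((a.qt z).symm ▸ a.sub i _ hi :) ((a.qt z).trans (a'.qt z).symm)
    ((a.φt i z hi).trans (e ▸ a'.φt i z hi).symm)

variable (W : WF) {b d D D₂ : ℕ} {B : Mn b} {c : Cv B} {M : Vr d} {G : Vr 1} {g : G.X → ℂ}
  {F : Fl c M D} {F₂ : Fl c (M.prod G) D₂} {t : F₂.T.X → F.T.X}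

/-- **PBF** -/
theorem pbf (hg : IsGm G g) (h : Hm0 F₂ F (fun _ => Prod.fst) t)
    (tr : ∀ i j, (c.V i ∩ c.V j).Nonempty → ∀ p, F₂.tr i j p = (F.tr i j p.1, p.2))
    (gy : ∀ {e i f₀ f} (k : Hm0 F F₂ (fun _ => e) i), Reg (M.prod G).cp f₀ →
      F₂.Inv (fun _ => f₀) f → Emb d (d + 1) e {m | f₀ m = 0} → IsClosedEmbedding e →
      (∀ m, f₀ m = 0 → Sbm (d + 1) 1 (fun m (_ : Fin 1) => f₀ m) m) →
      Grd (wH W F₂) (wH W F) (-2) (P275S.pb (tm k.smo)).toLinearMap) :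
    Grd (wH W F) (wH W F₂) 2 (P275S.pb (tm h.smo)).toLinearMap := by
  obtain ⟨ν, hν, gν⟩ := hg.ex_inv
  obtain ⟨o, ho⟩ := hg.onto one_ne_zero
  have νν : ∀ y, ν (ν y) = y := fun y => hg.isEmb.injective (by rw [gν, gν, inv_inv])
  obtain ⟨k, hk⟩ := F₂.ex_inv (k₀ := fun _ => Prod.snd) fun i j a p => by rw [tr i j a]
  obtain ⟨ι, hι⟩ : ∃ ι, Hm0 F₂ F₂ (fun _ p => (p.1, ν p.2)) ι := F₂.ex_hm F₂ holM_id
    (fun _ _ a => a) (fun _ => .pair .fst (hν.comp .snd)) fun i j a p =>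
      (congrArg (fun p : M.X × G.X => (p.1, ν p.2)) (tr i j a p)).trans (tr i j a (p.1, ν p.2)).symm
  obtain ⟨s, hs⟩ : ∃ s, Hm0 F F₂ (fun _ m => (m, o)) s := F.ex_hm F₂ holM_id (fun _ _ a => a)
    (fun _ => .pair (.id _) (.const _ _ o)) fun i j a p => (tr i j a (p, o)).symm
  have ιι : ∀ z, ι (ι z) = z := hm_uniq (hι.comp hι) (hm_id F₂) (funext₂ fun _ p => Prod.ext rfl (νν p.2))
  have tι : ∀ z, t (ι z) = t z := hm_uniq (h.comp hι) h rfl
  have ts : ∀ z, t (s z) = z := hm_uniq (h.comp hs) (hm_id F) rfl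
  have kι : ∀ z, k (ι z) = ν (k z) := fun z =>
    let ⟨i, hi⟩ := c.cov (F₂.q z)
    (hι.inv hk i z hi).trans (congrArg ν (hk i z hi).symm)
  have g1 : Grd (wH W F₂) (wH W F₂) 0 (P275S.pb (tm hι.smo)).toLinearMap :=
    grd_iso W hι.hol hι isProperMap_id (fun _ => (Homeomorph.refl M.X).prodCongr
      ⟨⟨ν, ν, νν, νν⟩, hν.cont, hν.cont⟩ |>.isProperMap) ιι ιι
  have r0 : Reg (M.prod G).cp fun p => g p.2 - 1 := (hg.reg.comp .snd).sub (.const _ 1)
  have sb : ∀ p, Sbm (d + 1) 1 (fun (p : M.X × G.X) (_ : Fin 1) => g p.2 - 1) p := fun p =>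
    .comp (g := fun y (_ : Fin 1) => g y - 1) (holA_iff.2 fun _ => (hg.reg.sub (.const _ 1)).hol _)
      (hol_snd.at p) (hg.sbm 1 _) (sbm_snd p)
  have g2 := gy hs r0 (f := fun z => g (k z) - 1) (fun i z a => congrArg (g · - 1) (hk i z a))
    ⟨holM_mk holM_id (holM_const o), fun _ _ e => congrArg Prod.fst e,
      fun m => imm_mk_left (imm_id m) (holM_id.at m) ((holM_const o).at m),
      ext fun p => ⟨fun ⟨_, e⟩ => e ▸ sub_eq_zero.2 ho, fun e =>
        ⟨p.1, Prod.ext rfl (hg.isEmb.injective (ho.trans (sub_eq_zero.1 e).symm))⟩⟩⟩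
    (LeftInverse.isClosedEmbedding (f := Prod.fst) (g := fun m : M.X => (m, o)) (fun _ => rfl)
      continuous_fst (by fun_prop))
    fun p _ => sb p
  have hΘ : Hm0 F₂ (F.prodV G) (fun _ p => p) fun z => (t z, k z) :=
    ⟨holM_id, fun _ _ a => a, fun _ => .id _, h.qt, fun i z a => Prod.ext (h.φt i z a) (hk i z a)⟩
  have nz : Nz (X := TopCat.of F₂.T.X) fun z => g (k z) :=
    ⟨hg.isEmb.continuous.comp (hk.cont fun _ => continuous_snd), fun _ => hg.ne _⟩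
  have := nice (d := D) (M := F.T.X)
  have K := kunc (tm h.smo) nz ((IsEmbedding.id.prodMap hg.isEmb).comp
    (hΘ.isEmb .id fun _ => .id)) fun x w hw => by
      obtain ⟨y, rfl⟩ := hg.onto hw
      obtain ⟨z, e⟩ := hΘ.onto surjective_id (fun _ => surjective_id) (x, y)
      exact ⟨z, congrArg Prod.fst e, congrArg (fun p => g p.2) e⟩
  have e1 : ∀ a, P275S.pb (tm hι.smo) (P275S.pb (tm h.smo) a) = P275S.pb (k := ℂ) (tm h.smo) a :=
    fun a => (P275S.pb_comp _ _ a).trans (congrArg (P275S.pb · a) (TopCat.ext tι))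
  have e2 : ∀ a, P275S.pb (tm hs.smo) (P275S.pb (k := ℂ) (tm h.smo) a) = a := fun a =>
    ((P275S.pb_comp _ _ a).trans (congrArg (P275S.pb · a) (TopCat.ext ts))).trans (P275S.pb_id a)
  have e3 : P275S.pb (tm hι.smo) (wind nz) = -wind nz := by
    rw [← wind_pb, eq_neg_iff_add_eq_zero, ← wind_mul]
    refine wind_exp _ continuous_zero fun z => ?_
    change Complex.exp 0 = g (k (ι z)) * g (k z)
    rw [kι, gν, inv_mul_cancel₀ (hg.ne _), Complex.exp_zero]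
  exact grd_gm (gr_wH W F) (gr_wH W F₂) K e1 e2 e3 g1 g2

end Vale.Agent.P275TB
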