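import Vale.Agent.P275TB.Wh
import Vale.Agent.P275KU.Ten

/-!
# P275, flat bundles: the pull-back along a projection of the base is graded
-/

open scoped Manifold ContDiff Topology
open Set Function Filter
open Vale.Agent.P272.K Vale.Agent.P281Z.Hg Vale.Agent.P275MC Vale.Agent.P275FM Vale.Agent.P275AR
  Vale.Agent.P275XI Vale.Agent.P275B Vale.Agent.P275RG Vale.Agent.P275KU
open Vale.Agent.P281Z (HolM HolA imm_id)
open P275S (H)

set_option linter.unusedSectionVars false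

noncomputable section

namespace Vale.Agent.P275TB

section man

variable {d e : ℕ} {M N P : Type} [TopologicalSpace M] [ChartedSpace (Cm d) M]
  [IsManifold 𝓘(ℂ, Cm d) ω M] [T2Space M] [SecondCountableTopology M] [TopologicalSpace N]
  [ChartedSpace (Cm e) N] [IsManifold 𝓘(ℂ, Cm e) ω N] [T2Space N] [TopologicalSpace P]
  [ChartedSpace (Cm (d + e)) P] [IsManifold 𝓘(ℂ, Cm (d + e)) ω P] [T2Space P]
  [SecondCountableTopology P] {t : P → M} {s : P → N}
  {w : ℕ → Module.End ℂ (Hc d (univ : Set M))} {w' : ℕ → Module.End ℂ (Hc (d + e) (univ : Set P))}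

/-- the pull-back to a product -/
theorem grd_prod (hw : IsGr w) (hw' : IsGr w') (ht : Smo (d + e) d t) (hs : Smo (d + e) e s)
    (o : OE (d + e) fun z => (t z, s z)) (ho : Ori (d + e) fun z => (t z, s z))
    (su : Surjective fun z => (t z, s z))
    (g : ∀ y ∈ Ac e (univ : Set N), dd e N y = 0 →
      ∀ a : Act univ univ ((wdL _ P).flip (pb hs y) ∘ₗ pb ht), Grd w w' 0 a.map) :
    Grd (wT w) (wT w') 0 (P275S.pb (tm ht)).toLinearMap := by
  have h1 : ∀ u y, pb o.smo (cr d e M N u y) = wd (pb ht u) (pb hs y) := fun u y => by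
    rw [cr_apply, pb_wd, pb_pb o.smo smo_fst ht fun _ => rfl, pb_pb o.smo smo_snd hs fun _ => rfl]
  have R : Act (univ ×ˢ univ) univ (pb o.smo) := .res o (fun p _ => su p) (subset_univ _)
  have E : Act univ (univ ×ˢ univ) o.ext := .ext o fun _ _ => ⟨trivial, trivial⟩
  have A : ∀ y : {y // y ∈ Ac e (univ : Set N) ∧ dd e N y = 0},
      Act univ univ ((wdL _ P).flip (pb hs y.1) ∘ₗ pb ht) := fun y =>
    act_rwd ht (pb_Zf hs ⟨_, y.2.2⟩) fun u hu => h1 u y ▸ R.mem _ (cr_Ac hu y.2.1)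
  refine grd_fam (gr_wT hw') (gr_wT hw) (χ := fun y => adj (A y).map) (t := fun _ => 0)
    (fun y => grd_adj (s := 0) (g _ y.2.1 y.2.2 _) (pd_adj _)) (fun α h => ?_) fun y => ?_
  · refine H_ext (d := d + e) fun x => ?_
    rw [map_zero, LinearMap.zero_apply, ← (R.comp E).map_id (fun u hu => o.pb_ext hu) x,
      R.map_comp E]
    obtain ⟨τ, hτ⟩ := (kuenneth isOpen_univ isOpen_univ).2 (E.map x)
    rw [← hτ]
    clear hτ
    induction τ using TensorProduct.induction_on with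
    | zero => rw [map_zero, map_zero, map_zero]
    | add a b ha hb => rw [map_add, map_add, map_add, ha, hb, add_zero]
    | tmul a b =>
      obtain ⟨u, hu, u0, rfl⟩ := hc_ind a
      obtain ⟨y, hy, y0, rfl⟩ := hc_ind b
      have h2 := pd_adj (A ⟨y, hy, y0⟩).map α (hc u hu u0)
      rw [h, map_zero, LinearMap.zero_apply] at h2
      rw [TensorProduct.lift.tmul, crH_hc, h2]
      exact congrArg _ (Coh.mk_congr (Subtype.ext (h1 u y)) _)
  · refine grd_congr ((gr_wT hw).grd_id.smul (sgc d e * itc e N y)) rfl fun α =>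
      H_ext (d := d) fun x => ?_
    obtain ⟨v, rfl⟩ := clT_surj (d := d) α
    obtain ⟨z, hz, rfl⟩ := Coh.ind x
    have h2 : wd v.1 z.1 ∈ Ac d univ := wd_Ac _ z.2
    have h3 : itc _ P (wd (pb ht v.1) (wd (pb ht z.1) (pb hs y.1))) =
        (sgc d e * itc e N y) • itc d M (wd v.1 z.1) := by
      rw [← wd_wd, ← pb_wd, ← h1, o.itc_pb ho (Ac_mono (fun p _ => su p) (cr_Ac h2 y.2.1)),
        itc_cr h2 y.2.1, smul_eq_mul]
      ring
    rw [LinearMap.comp_apply, pd_adj, AlgHom.toLinearMap_apply, ← clT_pb,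
      LinearMap.smul_apply, LinearMap.id_apply, map_smul, LinearMap.smul_apply, pd_clT]
    exact (pd_clT _ _ ((A y).ch.cyc z hz)).trans h3

end man

variable (W : WF) {b d e D D₂ : ℕ} {B : Mn b} {N : Mn e} {c : Cv B} {c₂ : Cv (B.prod N)} {M : Vr d}
  {F : Fl c M D} {F₂ : Fl c₂ M D₂} {r : c₂.ι → c.ι} {t : F₂.T.X → F.T.X}

/-- **PBB** -/
theorem pbb (h : Hm (B' := B.prod N) Prod.fst r F₂ F (fun _ y => y) t) :
    Grd (wH W F) (wH W F₂) 0 (P275S.pb (tm h.smo)).toLinearMap := by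
  obtain rfl : D₂ = D + e := by
    have := F.dim
    have := F₂.dim
    omega
  have hs : HolM (D + e) e fun z => (F₂.q z).2 := hol_snd.comp F₂.hq
  have hΘ := holM_mk h.hol hs
  let g : c₂.ι → F.T.X × N.X → F₂.T.X := fun a p => F₂.ψ a ((F.q p.1, p.2), F.φ (r a) p.1)
  have h0 : ∀ z, (F.q (t z), (F₂.q z).2) = F₂.q z := fun z => Prod.ext (h.qt z) rfl
  have h1 : ∀ a z, F₂.q z ∈ c₂.V a → g a (t z, (F₂.q z).2) = z := fun a z k => by
    simp only [g, h0, h.φt a z k, F₂.ψφ a z k]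
  have h2 : ∀ a p, (F.q p.1, p.2) ∈ c₂.V a → (t (g a p), (F₂.q (g a p)).2) = p := fun a p k => by
    have k1 : F₂.q (g a p) = (F.q p.1, p.2) := F₂.qψ a _ k
    refine Prod.ext (F.tv.ext' (h.sub a _ k) ?_ ?_).symm (congrArg Prod.snd k1 :)
    · exact ((h.qt _).trans (congrArg Prod.fst k1)).symm
    · exact ((h.φt a _ (k1.symm ▸ k)).trans (F₂.φψ a _ k)).symm
  have hq : HolM (D + e) (b + e) fun p : F.T.X × N.X => (F.q p.1, p.2) :=
    holM_mk (F.hq.comp hol_fst) hol_snd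
  have h3 : ∀ a p, (F.q p.1, p.2) ∈ c₂.V a → HolA (D + e) (D + e) (g a) p := fun a p k =>
    (F₂.hψ a _ k).cmp (holA_mk (hq.at p) ((F.hφ _ _ (h.sub a _ k)).cmp (hol_fst.at p)))
  refine grd_prod (W.gr F) (W.gr F₂) h.smo (smo_of_hol hs) ⟨smo_of_hol hΘ, fun z z' k => ?_,
    fun z => ?_⟩ (ori_of_imm hΘ fun z => ?_) (fun p => ?_) fun y hy y0 => ?_
  · obtain ⟨a, ha⟩ := c₂.cov (F₂.q z)
    have k' : F₂.q z = F₂.q z' := by
      rw [← h0 z, ← h0 z']
      exact congrArg (fun p : F.T.X × N.X => (F.q p.1, p.2)) k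
    exact (h1 a z ha).symm.trans ((congrArg (g a) k).trans (h1 a z' (k' ▸ ha)))
  · obtain ⟨a, ha⟩ := c₂.cov (F₂.q z)
    have k : (F.q (t z), (F₂.q z).2) ∈ c₂.V a := (h0 z).symm ▸ ha
    exact ⟨g a, h1 a z ha, smA_of_hol (h3 a _ k), (hq.cont.continuousAt.eventually
      ((c₂.opn a).eventually_mem k)).mono (h2 a)⟩
  · obtain ⟨a, ha⟩ := c₂.cov (F₂.q z)
    exact .of_comp (h3 a _ ((h0 z).symm ▸ ha)) (hΘ.at z)
      ((imm_id z).cng ((F₂.tv.near ha).mono fun u k => (h1 a u k).symm))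
  · obtain ⟨a, ha⟩ := c₂.cov (F.q p.1, p.2)
    exact ⟨_, h2 a p ha⟩
  · rw [← pb_pb (smo_of_hol F₂.hq) smo_snd _ fun _ => rfl]
    exact W.pull h (fun _ => isProperMap_id) smo_fst _ _ _ (pb_Zf smo_snd ⟨y, y0⟩)
      fun u hu => Ac_mono (subset_univ _) (cr_Ac hu hy)

end Vale.Agent.P275TB
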