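import Vale.Agent.P275TB.Man
import Vale.Agent.P275XI.Kap

/-!
# P275, weights of Chern classes and of pull-backs on flat bundles
-/

open scoped Manifold ContDiff Topology
open Set Function Topology
open Vale.Agent.P272.K Vale.Agent.P281Z.Hg Vale.Agent.P275MC Vale.Agent.P275FM Vale.Agent.P275AR
  Vale.Agent.P275XI Vale.Agent.P275B
open P275S (H Hd pow_mem_Hd pb_mem eq_zero_of_neg)
open P275CC (Th)

set_option linter.unusedSectionVars false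

noncomputable section

namespace Vale.Agent.P275TB

variable (W : WF) {b d₁ d₂ d₃ d₄ D₁ D₂ D₃ D₄ N r : ℕ} {B : Mn b} {c : Cv B} {M₁ : Vr d₁}
  {M₂ : Vr d₂} {M₃ : Vr d₃} {M₄ : Vr d₄} {F : Fl c M₁ D₁} {Q : Fl c M₂ D₂} {P : Fl c M₃ D₃}
  {E : Fl c M₄ D₄}

/-- maps of total spaces which are proper algebraic maps on the fibres -/
def Pm (Q : Fl c M₂ D₂) (F : Fl c M₁ D₁) (t : C(Q.T.X, F.T.X)) : Prop :=
  ∃ f, Hm0 Q F f t ∧ ∀ i, IsProperMap (f i)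

namespace Pm

variable {t : C(Q.T.X, F.T.X)} (h : Pm Q F t)
include h

theorem smo : Smo D₂ D₁ t := h.choose_spec.1.smo

theorem proper : IsProperMap t := h.choose_spec.1.proper isProperMap_id h.choose_spec.2

theorem act : Act (univ : Set F.T.X) univ (pb h.smo) := act_univ _ h.proper

/-- the Gysin map -/
abbrev gy : HH Q.T.X →ₗ[ℂ] HH F.T.X := gys h.act

theorem grd : Grd (wH W Q) (wH W F) 0 h.gy :=
  grd_gys W h.choose_spec.1 isProperMap_id h.choose_spec.2 _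

theorem pj : Pj (pbc t) h.gy := gys_mul h.act

theorem cemb (e : Injective t) : IsClosedEmbedding t :=
  .of_continuous_injective_isClosedMap t.continuous e h.proper.isClosedMap

theorem ex (e : Injective t) (hd : D₁ = D₂ + r) {α : HH F.T.X}
    (hα : α ∈ Hd ℂ (TopCat.of F.T.X) (2 * r)) (h0 : Vn α (range t)ᶜ) :
    ∃ β ∈ Hd ℂ (TopCat.of Q.T.X) 0, α = h.gy β :=
  ex_gys (h.cemb e) h.act (by omega) hα h0

theorem comp {u : C(P.T.X, Q.T.X)} {v : C(P.T.X, F.T.X)} (k : Pm P Q u) (l : Pm P F v)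
    (e : ∀ x, t (u x) = v x) (a : HH P.T.X) : h.gy (k.gy a) = l.gy a := by
  obtain rfl : v = t.comp u := ContinuousMap.ext fun x => (e x).symm
  exact (gys_comp k.act h.act l.act a).symm

theorem mem (hd : D₂ = D₁ + r) {ξ : HH Q.T.X} (hξ : ξ ∈ Hd ℂ (TopCat.of Q.T.X) 2) (i : ℕ) :
    h.gy (ξ ^ i) ∈ Hd ℂ (TopCat.of F.T.X) (2 * i - 2 * r) :=
  gys_mem h.act (pow_mem_Hd hξ i) (by rw [hd]; push_cast; ring)

/-- a projective bundle with a section -/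
theorem pb (hd : D₂ = D₁ + r) {s : C(F.T.X, Q.T.X)} (k : Pm F Q s) (e : ∀ x, t (s x) = x)
    {ξ : HH Q.T.X} (hξ : ξ ∈ Hd ℂ (TopCat.of Q.T.X) 2)
    (sp : ∀ a, ∃ x : ℕ → HH F.T.X, a = ∑ i ∈ Finset.range (r + 1), pbc t (x i) * ξ ^ i) :
    Pb (pbc t) h.gy ξ r :=
  ⟨h.pj, ce_even D₂ hξ even_two, sp, fun i k => eq_zero_of_neg (by omega) (h.mem hd hξ i),
    ce_even D₁ (h.mem hd hξ r) (by simp), _, gys_sec h.act k.act e 1⟩

end Pm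

theorem pbc_eq {X Y Z : Type} [TopologicalSpace X] [TopologicalSpace Y] [TopologicalSpace Z]
    {g : C(X, Y)} {f : C(Y, Z)} {k : C(X, Z)} (e : ∀ x, f (g x) = k x) (a : HH Z) :
    pbc g (pbc f a) = pbc k a :=
  (pbc_comp g f a).trans (by rw [show f.comp g = k from ContinuousMap.ext e])

theorem pbc_sec {X Y : Type} [TopologicalSpace X] [TopologicalSpace Y]
    {g : C(X, Y)} {f : C(Y, X)} (e : ∀ x, f (g x) = x) (a : HH X) : pbc g (pbc f a) = a :=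
  (pbc_eq (k := .id X) e a).trans (P275S.pb_id a)

/-- the completion `P` of `L ^ (N + 2)` over `F`, the divisor `Q` at infinity, the zero section -/
structure XD (N : ℕ) (F : Fl c M₁ D₁) (Q : Fl c M₂ D₂) (P : Fl c M₃ D₃) (pr : C(Q.T.X, F.T.X))
    (π : C(P.T.X, F.T.X)) (j : C(Q.T.X, P.T.X)) (s : C(F.T.X, P.T.X)) (a : HH F.T.X)
    (ζ η : HH P.T.X) : Prop where
  d0 : D₁ ≤ N
  d1 : D₂ = D₁ + (N + 1)
  d2 : D₃ = D₁ + (N + 2)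
  conn : ∀ i, IsPreconnected (c.V i)
  hpr : Pm Q F pr
  hπ : Pm P F π
  hj : Pm Q P j
  hs : Pm F P s
  ji : Injective j
  πj : ∀ x, π (j x) = pr x
  πs : ∀ x, π (s x) = x
  js : ∀ x, j x ∉ range s
  ha : a ∈ Hd ℂ (TopCat.of F.T.X) 2
  hζ : ζ ∈ Hd ℂ (TopCat.of P.T.X) 2
  eq : η = ζ + pbc π a
  pb : Pb (pbc pr) hpr.gy (pbc j η) (N + 1)
  mg : MG (wH W Q) (-2) (pbc j η)
  vζ : Vn ζ (range j)ᶜ
  vη : Vn (η ^ (N + 2)) (range s)ᶜ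

namespace XD

variable {W} {pr : C(Q.T.X, F.T.X)} {π : C(P.T.X, F.T.X)} {j : C(Q.T.X, P.T.X)}
  {s : C(F.T.X, P.T.X)} {a : HH F.T.X} {ζ η : HH P.T.X} (h : XD W N F Q P pr π j s a ζ η)
include h

theorem hη : η ∈ Hd ℂ (TopCat.of P.T.X) 2 := h.eq ▸ add_mem h.hζ (pb_mem _ h.ha)

theorem cm : ∃ m ∈ Hd ℂ (TopCat.of F.T.X) 0,
    Cm N (pbc pr) h.hpr.gy (pbc π) h.hπ.gy (pbc j) h.hj.gy a m (pbc j η) ζ η := by
  obtain ⟨β, h1, h2⟩ := h.hj.ex (r := 1) h.ji (by rw [h.d1, h.d2]; rfl) h.hζ h.vζ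
  obtain ⟨m, h3, rfl⟩ := ex_zero h.pb (pb_mem _ h.hη) h1
  exact ⟨m, h3, h.pb, (map_pow _ _ _).symm.trans (Th.Vn.pb h.vη j h.js), h.hj.pj, pbc_eq h.πj,
    h.hπ.comp h.hj h.hpr h.πj, ce_even D₃ h.hη even_two, ce_even D₁ h.ha even_two,
    ce_even D₂ (pb_mem _ h.ha) even_two, ce_even D₁ h3 Even.zero,
    eq_zero_of_big (d := D₁) (pow_mem_Hd h.ha _) (.inr (by have := h.d0; push_cast; omega)),
    h.eq, rfl, h2⟩

theorem g5 : MG (wH W F) 0 (h.hpr.gy (pbc j η ^ (N + 1))) :=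
  mg_zero W F h.conn (sub_self (2 * (N + 1 : ℕ) : ℤ) ▸ h.hpr.mem h.d1 (pb_mem _ h.hη) _)

/-- **XI** -/
theorem xi : MG (wH W F) (-2) a := by
  obtain ⟨m, h1, h2⟩ := h.cm
  obtain ⟨m', h3, h4⟩ := h.hs.ex (LeftInverse.injective h.πs) h.d2 (pow_mem_Hd h.hη _) h.vη
  exact h2.xi (gr_wH W F) (gr_wH W Q) (gr_wH W P) (h.hpr.grd W) (h.hj.grd W) h.mg
    (mg_zero W F h.conn h1) h.g5 h.hs.pj (pbc_sec h.πs) h4 (ce_even D₁ h3 Even.zero)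
    (h.hs.grd W) (mg_zero W F h.conn h3)

/-- **PBE** -/
theorem pbe {ι : C(E.T.X, P.T.X)} {ρ : C(E.T.X, F.T.X)} (hd : D₄ = D₁ + 1) (hι : Pm E P ι)
    (hρ : Pm E F ρ) (ιi : Injective ι) (πι : ∀ x, π (ι x) = ρ x)
    (hE : Pb (pbc ρ) hρ.gy (pbc ι ζ) 1) (v : Vn (η ^ (N + 1)) (range ι)ᶜ) :
    Grd (wH W F) (wH W E) 2 (pbc ρ).toLinearMap := by
  obtain ⟨m, h1, h2⟩ := h.cm
  obtain ⟨β, h3, h4⟩ := hι.ex ιi (by rw [hd, h.d2]; omega) (pow_mem_Hd h.hη _) v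
  obtain ⟨m', h5, rfl⟩ := ex_zero hE (pb_mem _ h.hζ) h3
  exact h2.pbe (gr_wH W F) (gr_wH W Q) (gr_wH W P) (h.hpr.grd W) (h.hj.grd W) h.mg
    (mg_zero W F h.conn h1) h.g5 (gr_wH W E) hι.pj (pbc_eq πι) (h.hπ.comp hι hρ πι) hE h4
    (ce_even D₁ h5 Even.zero) (hι.grd W) (mg_zero W F h.conn h5) h.xi

end XD

/-- **GY**: `P` is the deformation space of the divisor `i : Q → F`, `s` a general fibre and
`e : E → P` the exceptional divisor -/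
theorem gyf (hc : ∀ i, IsPreconnected (c.V i)) {i : C(Q.T.X, F.T.X)} {q : C(P.T.X, F.T.X)}
    {s : C(F.T.X, P.T.X)} {e : C(E.T.X, P.T.X)} {ρ : C(E.T.X, Q.T.X)} (d1 : D₃ = D₁ + 1)
    (d2 : D₃ = D₄ + 1) (hs : Pm F P s) (he : Pm E P e) (hρ : Pm E Q ρ) (ei : Injective e)
    (qs : ∀ x, q (s x) = x) (qe : ∀ x, q (e x) = i (ρ x)) {ξ : HH P.T.X}
    (hξ : ξ ∈ Hd ℂ (TopCat.of P.T.X) 2) (vs : Vn ξ (range s)ᶜ) (ve : Vn ξ (range e)ᶜ)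
    (hE : Pb (pbc ρ) hρ.gy (pbc e ξ) 1) (g : Grd (wH W Q) (wH W E) 2 (pbc ρ).toLinearMap) :
    Grd (wH W F) (wH W Q) (-2) (pbc i).toLinearMap := by
  obtain ⟨m, h1, rfl⟩ := hs.ex (r := 1) (LeftInverse.injective qs) d1 hξ vs
  obtain ⟨β, h3, h4⟩ := he.ex (r := 1) ei d2 hξ ve
  obtain ⟨l, h5, rfl⟩ := ex_zero hE (pb_mem _ hξ) h3
  exact gy (q := pbc q) hs.pj he.pj (pbc_sec qs)
    (fun a => (pbc_eq (k := i.comp ρ) qe a).trans (pbc_comp ρ i a).symm) hE h4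
    (pb_gys (he.cemb ei) he.act) (ce_even D₁ h1 Even.zero) (ce_even D₂ h5 Even.zero) (gr_wH W F)
    (gr_wH W Q) (gr_wH W E) (gr_wH W P) (hs.grd W) (he.grd W) g (mg_zero W F hc h1)
    (mg_zero W Q hc h5)

end Vale.Agent.P275TB
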