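import Vale.Agent.P275TB.Wh
import Vale.Agent.P275MC.Ex
import Vale.Agent.P275S.Th
import Vale.Agent.P275CC.Ev
import Vale.Agent.P275XI.Abs
import Vale.Agent.P275FM.Kah

/-!
# P275, projective bundles and divisors on manifolds, seen on the rings
-/

open scoped Manifold ContDiff Topology
open Set Function Topology
open Vale.Agent.P272.K Vale.Agent.P281Z.Hg Vale.Agent.P275MC Vale.Agent.P275FM Vale.Agent.P275AR
  Vale.Agent.P275XI Vale.Agent.P275B Vale.Agent.P281Z.Hg.Pb1H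
open Vale.Agent.P281Z (Mf)
open Vale.Agent.P275RG (Alg Cp)
open P275S (H Hd KG th c1 c1_mem pow_mem_Hd mul_mem_Hd eq_zero_of_neg)
open P275CC (LB Nc PFib Th)

set_option linter.unusedSectionVars false

noncomputable section

namespace Vale.Agent.P275TB

section top

variable {X : Type} [TopologicalSpace X] [Nc X] {L : LB X} {a : H ℂ (TopCat.of X)}

/-- the class vanishes on the set -/
abbrev Vn (a : H ℂ (TopCat.of X)) (W : Set X) : Prop := th.Vn a W

theorem vn_c1 {s} (h : L.Sec univ s) : Vn (c1 (X := TopCat.of X) L) (L.NZ s) := Th.vn_sec h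

theorem vn_mono {W W' : Set X} (h : Vn a W) (e : W' ⊆ W) : Vn a W' := h.pb _ fun y => e y.2

theorem vn_pow {W : ℕ → Set X} (n : ℕ) (op : ∀ i < n, IsOpen (W i)) (h : ∀ i < n, Vn a (W i)) :
    Vn (a ^ n) (⋃ i < n, W i) := by
  induction n with
  | zero =>
    have : IsEmpty (⋃ i < 0, W i) := ⟨fun x => by simpa using x.2⟩
    exact th.empty _ _
  | succ n ih =>
    rw [pow_succ, biUnion_lt_succ]
    exact (ih (fun i k => op i (by omega)) fun i k => h i (by omega)).union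
      (isOpen_biUnion fun i k => op i (Nat.lt_succ_of_lt k)) (op n n.lt_succ_self)
      (h n n.lt_succ_self)

/-- `n` sections kill the `n`-th power outside their common zeros -/
theorem vn_secs {n : ℕ} {s : Fin n → L.ι → X → ℂ} (h : ∀ i, L.Sec univ (s i)) {W : Set X}
    (e : ∀ x ∈ W, ∃ i, x ∈ L.NZ (s i)) : Vn (c1 (X := TopCat.of X) L ^ n) W :=
  vn_mono (vn_pow (W := fun i => if k : i < n then L.NZ (s ⟨i, k⟩) else ∅) n
    (fun _ k => (dif_pos k).symm ▸ (h _).isOpen_NZ) fun _ k => (dif_pos k).symm ▸ vn_c1 (h _))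
    fun x hx => let ⟨i, k⟩ := e x hx; mem_biUnion i.2 ((dif_pos i.2).symm ▸ k)

end top

section man

variable {d d' : ℕ} {M N : Type} [TopologicalSpace M] [ChartedSpace (Cm d) M]
  [IsManifold 𝓘(ℂ, Cm d) ω M] [T2Space M] [TopologicalSpace N] [ChartedSpace (Cm d') N]
  [IsManifold 𝓘(ℂ, Cm d') ω N] [T2Space N] [SecondCountableTopology M]
  [SecondCountableTopology N] {f : M → N} {hf : Smo d d' f} {m n : ℤ}

variable (d M) in
include d in
theorem nc : Nc M := ⟨ChartedSpace.locallyCompactSpace (Cm d) M, ‹_›, ‹_›⟩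

theorem gys_pr (h : Act (univ : Set N) univ (pb hf)) (e : m + 2 * d' = n + 2 * d)
    (β : H ℂ (TopCat.of M)) : gys h (KG.pr m β) = KG.pr n (gys h β) := by
  induction β using KG.ind_deg with
  | h0 => simp only [map_zero]
  | hadd x y h1 h2 => simp only [map_add, h1, h2]
  | hmk k β hβ =>
    have h1 := gys_mem h hβ (n := k + 2 * d' - 2 * d) (by ring)
    by_cases l : k = m
    · rw [KG.pr_of_mem (l ▸ hβ), KG.pr_of_mem ((show k + 2 * d' - 2 * d = n by omega) ▸ h1)]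
    · rw [KG.pr_of_ne hβ l, KG.pr_of_ne h1 (by omega), map_zero]

/-- a class which vanishes outside of a closed submanifold -/
theorem ex_gys (he : IsClosedEmbedding f) (h : Act (univ : Set N) univ (pb hf))
    (e : m + 2 * d' = n + 2 * d) {α : H ℂ (TopCat.of N)} (hα : α ∈ Hd ℂ (TopCat.of N) n)
    (h0 : Vn α (range f)ᶜ) : ∃ β ∈ Hd ℂ (TopCat.of M) m, α = gys h β := by
  let O : TopologicalSpace.Opens N := ⟨(range f)ᶜ, he.isClosed_range.isOpen_compl⟩
  obtain ⟨β, rfl⟩ := (gex_M hf he (oe_val O) Subtype.range_coe (ori_val O) h α).1 h0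
  exact ⟨_, KG.pr_mem_deg m β, by rw [gys_pr h e, KG.pr_of_mem hα]⟩

theorem gys_sec (h : Act (univ : Set N) univ (pb hf)) {s : N → M} {hs : Smo d' d s}
    (h' : Act (univ : Set M) univ (pb hs)) (e : ∀ x, f (s x) = x) (α : H ℂ (TopCat.of N)) :
    gys h (gys h' α) = α := by
  have k : Act (univ : Set N) univ (pb (smo_comp hs hf)) :=
    act_pb _ ((funext e : f ∘ s = id).symm ▸ isProperMap_id)
  rw [← gys_comp h' h k, gys_id k e]

/-- a projective bundle with a section -/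
theorem pb_of {r e : ℕ} (hd : d = d' + r) (hp : IsProperMap f)
    (h : Act (univ : Set N) univ (pb hf)) {s : N → M} {hs : Smo d' d s}
    (h' : Act (univ : Set M) univ (pb hs)) (k : ∀ x, f (s x) = x) (L : LB M) (he : e ≠ 0)
    (hL : ∀ x, PFib L (f ⁻¹' {x}) r e) :
    Pb (P275S.pb (tm hf)) (gys h) (c1 (X := TopCat.of M) L) r := by
  have := nice (d := d) (M := M)
  have := nice (d := d') (M := N)
  have h1 := fun i : ℕ => gys_mem h (pow_mem_Hd (c1_mem (X := TopCat.of M) L) i)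
    (n := 2 * i - 2 * r) (by rw [hd]; push_cast; ring)
  refine ⟨fun b a => gys_mul h b a, ce_even d (c1_mem _) even_two, fun b => ?_,
    fun i k => eq_zero_of_neg (by omega) (h1 i), ce_even d' (h1 r) (by simp),
    _, gys_sec h h' k 1⟩
  obtain ⟨a, rfl⟩ := (P275S.lh_pf P275S.lhp he (tm hf) hp L hL).2 b
  refine ⟨fun i => if k : i < r + 1 then a ⟨i, k⟩ else 0, ?_⟩
  rw [← Fin.sum_univ_eq_sum_range (fun i => P275S.pb (tm hf) (if k : i < r + 1 then a ⟨i, k⟩ else 0) *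
    c1 (X := TopCat.of M) L ^ i)]
  exact Finset.sum_congr rfl fun i _ => by rw [dif_pos i.2]

end man

/-- classes of degree zero come from the base -/
theorem ex_zero {X Y : TopCat.{0}} {p : Y ⟶ X} {g : H ℂ Y →ₗ[ℂ] H ℂ X} {ξ : H ℂ Y} {r : ℕ}
    (h : Pb (P275S.pb p) g ξ r) (hξ : ξ ∈ Hd ℂ Y 2) {b : H ℂ Y} (hb : b ∈ Hd ℂ Y 0) :
    ∃ a ∈ Hd ℂ X 0, b = P275S.pb p a := by
  obtain ⟨x, e⟩ := h.span b
  refine ⟨_, KG.pr_mem_deg 0 (x 0), ?_⟩
  rw [P275S.pb_pr, ← KG.pr_of_mem hb, e, map_sum, Finset.sum_range_succ', pow_zero, mul_one,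
    Finset.sum_eq_zero, zero_add]
  intro i _
  exact (KG.pr_comp_of_left (b := -(2 * (i + 1 : ℕ))) (add_neg_cancel _) (pow_mem_Hd hξ _) _).trans
    (by rw [eq_zero_of_neg (by omega) (KG.pr_mem_deg _ (P275S.pb p (x (i + 1)))),
      CategoryTheory.Limits.comp_zero])

/-- classes of even degree which come from a compact Kaehler manifold -/
theorem mg_kah (W : WF) {b d D m : ℕ} {B : Mn b} {c : Cv B} {M : Vr d} (F : Fl c M D) (Y : Mf m)
    (hY : Y.Kah) {k₀ k} (h : ∀ i, Alg M.cp (Cp.self Y hY) (k₀ i)) (hi : F.Inv k₀ k) {s : ℕ}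
    (hs : Even s) (hk : Smo D m k) {α : H ℂ (TopCat.of Y.X)} (hα : α ∈ Hd ℂ (TopCat.of Y.X) s) :
    MG (wH W F) (-s) (P275S.pb (tm hk) α) := by
  have := (Cp.self Y hY).sc
  obtain ⟨y, hy, h0, rfl⟩ := cl_surj (d := m) hα
  obtain ⟨v, h1, h2⟩ := (sf_ok hY.choose_spec).d_both (a := y) ((del_add_dlb y).trans h0)
  change del m Y.X (y + (del m Y.X v + dlb m Y.X v)) = 0 at h1
  change dlb m Y.X (y + (del m Y.X v + dlb m Y.X v)) = 0 at h2
  rw [del_add_dlb] at h1 h2
  have h3 : dd m Y.X (y + dd m Y.X v) = 0 := by rw [map_add, h0, dd_dd, add_zero]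
  have h4 : cl s ⟨y, h0⟩ = cl s ⟨pj m Y.X s (y + dd m Y.X v), dd_pj h3 s⟩ :=
    ((add_zero _).symm.trans (congrArg _ (cl_dd v).symm)).trans
      ((map_add (cl s) _ _).symm.trans (cl_congr (pj_eq (pj_mem _ _)).symm))
  rw [h4]
  exact mg_hyp W F Y hY h hi hs (pj_mem _ _) (by rw [← pj_del, h1, map_zero])
    (by rw [← pj_dlb, h2, map_zero]) _ hk

end Vale.Agent.P275TB
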