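import Vale.Agent.P275MK.Fl
import Vale.Agent.P275MC.Gy
import Vale.Agent.P275MC.C1
import Vale.Agent.P275XI.Alg
import Vale.Agent.P275FM.Dual
import Vale.Agent.P275S.Real

/-!
# P275, flat bundles: the weights on cohomology, transposed from compact supports
-/

open scoped Manifold ContDiff Topology
open Set Function Filter
open Vale.Agent.P272.K Vale.Agent.P281Z.Hg Vale.Agent.P275MC Vale.Agent.P275FM Vale.Agent.P275AR
  Vale.Agent.P275XI Vale.Agent.P275B Vale.Agent.P281Z.Hg.Pb1H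
open Vale.Agent.P281Z (HolM HolA Mf Imm holM_id imm_id)
open Vale.Agent.P275RG (Alg Cp)
open Vale.Agent.P275KU (SmC fn wd_comm)
open P275S (H Hd)

set_option linter.unusedSectionVars false

noncomputable section

namespace Vale.Agent.P275TB

section man

variable {d d' : ℕ} {M N : Type} [TopologicalSpace M] [ChartedSpace (Cm d) M]
  [IsManifold 𝓘(ℂ, Cm d) ω M] [T2Space M] [TopologicalSpace N] [ChartedSpace (Cm d') N]
  [IsManifold 𝓘(ℂ, Cm d') ω N] [T2Space N] {y : SF d M} {n s : ℤ}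

/-- a closed form of degree zero is a locally constant function -/
theorem lc_vf (hy : y ∈ Dg d M 0) (h0 : dd d M y = 0) : IsLocallyConstant (vf y) :=
  (IsLocallyConstant.iff_exists_open _).2 fun x => by
    obtain ⟨v, c, h⟩ := poincare (u := y) (x := x) (h0 ▸ zero_mem _)
    have h2 := op_Nb (T := pj d M 0) (opr_vl _) h
    have h3 := pj_dd (-1) v
    rw [neg_add_cancel, (Dg_neg (by simp)).le (pj_mem (-1) v), map_zero] at h3
    rw [map_add, map_sub, h3, pj_eq hy, map_smul, pj_eq one_Dg, zero_sub, neg_add_eq_sub,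
      ← P275KU.fn_const] at h2
    have h4 : ∀ᶠ z in 𝓝 x, vf y z = c := h2.mono fun z hz => by
      have := vf_ZP hz
      rw [map_sub, vf_fn] at this
      exact (sub_eq_zero.1 this).symm
    obtain ⟨U, h5, h6, h7⟩ := eventually_nhds_iff.1 h4
    exact ⟨U, h6, h7, fun z hz => (h5 z hz).trans (h5 x h7).symm⟩

omit [T2Space M] [T2Space N] in
theorem pb_pb {d'' : ℕ} {L : Type} [TopologicalSpace L] [ChartedSpace (Cm d'') L]
    [IsManifold 𝓘(ℂ, Cm d'') ω L] {f : M → N} {g : N → L} {k : M → L} (hf : Smo d d' f)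
    (hg : Smo d' d'' g) (hk : Smo d d'' k) (e : ∀ x, g (f x) = k x) (u : SF d'' L) :
    pb hf (pb hg u) = pb hk u := by
  obtain rfl : (fun x => g (f x)) = k := funext e
  exact (pb_comp hf hg u).symm

/-- pull back and multiply on the right by a closed form -/
theorem act_rwd {f : M → N} (hf : Smo d d' f) (h0 : dd d M y = 0)
    (h : ∀ u ∈ Ac d' (univ : Set N), wd (pb hf u) y ∈ Ac d univ) :
    Act univ univ ((wdL d M).flip y ∘ₗ pb hf) :=
  ⟨h, fun u _ => by
    change dd d M (wd _ y) = wd _ y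
    rw [dd_wd, h0, map_zero, add_zero, pb_dd]⟩

variable [SecondCountableTopology M] [SecondCountableTopology N]
  {w : ℕ → Module.End ℂ (Hc d (univ : Set M))} {w' : ℕ → Module.End ℂ (Hc d' (univ : Set N))}

/-- the transposed weights -/
def wT (w : ℕ → Module.End ℂ (Hc d (univ : Set M))) (q : ℕ) : Module.End ℂ (H ℂ (TopCat.of M)) :=
  (pd d M).symm.conj (w q).dualMap

theorem pd_wT (q : ℕ) (α : H ℂ (TopCat.of M)) (x : Hc d univ) :
    pd d M (wT w q α) x = pd d M α (w q x) :=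
  LinearMap.congr_fun ((pd d M).apply_symm_apply _) x

theorem gr_wT (h : IsGr w) : IsGr (wT w) := h.dual.tr (pd d M).symm

/-- the transpose of a graded map is graded -/
theorem grd_adj {T : Hc d' (univ : Set N) →ₗ[ℂ] Hc d (univ : Set M)} (g : Grd w' w s T)
    {φ : H ℂ (TopCat.of M) →ₗ[ℂ] H ℂ (TopCat.of N)}
    (e : ∀ α x, pd d' N (φ α) x = pd d M α (T x)) : Grd (wT w) (wT w') (-s) φ :=
  fun q q' α hq => H_ext (d := d') fun x => by
    rw [pd_wT, e, pd_wT, g q' q x (by omega), map_zero, map_zero, LinearMap.zero_apply]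

/-- the transpose -/
def adj (T : Hc d' (univ : Set N) →ₗ[ℂ] Hc d (univ : Set M)) :
    H ℂ (TopCat.of M) →ₗ[ℂ] H ℂ (TopCat.of N) :=
  (pd d' N).symm.toLinearMap ∘ₗ T.dualMap ∘ₗ (pd d M).toLinearMap

theorem pd_adj (T : Hc d' (univ : Set N) →ₗ[ℂ] Hc d (univ : Set M)) (α : H ℂ (TopCat.of M))
    (x : Hc d' univ) : pd d' N (adj T α) x = pd d M α (T x) :=
  LinearMap.congr_fun ((pd d' N).apply_symm_apply _) x

theorem mg_hm {β : H ℂ (TopCat.of M)} (g : Grd w w s (hm d univ β)) : MG (wT w) (-s) β :=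
  grd_adj g fun α x => pd_mul α β x

theorem mg_wd (hy : y ∈ Dg d M n) (h0 : dd d M y = 0) (h : Act univ univ (wd y))
    (g : Grd w w s h.map) : MG (wT w) (-s) (cl n ⟨y, h0⟩) := mg_hm ((hm_cl hy h0).symm ▸ g)

/-- left and right multiplication differ by signs -/
theorem mg_rwd (hw : IsGr w) (hd : ∀ k, Grd w w 0 (prH d univ k)) (hy : y ∈ Dg d M n)
    (h0 : dd d M y = 0) (h : Act univ univ ((wdL d M).flip y ∘ₗ pb smo_id))
    (g : Grd w w s h.map) : MG (wT w) (-s) (cl n ⟨y, h0⟩) := by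
  have key : ∀ (c : ℂ) (z : Ac d univ) (hz : dc d univ z = 0), wd y z.1 = c • wd z.1 y →
      P275MC.wH univ ⟨y, h0⟩ (Coh.mk z hz) = c • h.map (Coh.mk z hz) := fun c z hz hk => by
    have e : wd y z.1 = ((wdL d M).flip y ∘ₗ pb smo_id) (c • z.1) := by
      rw [hk, map_smul, LinearMap.comp_apply, pb_id]
      rfl
    rw [← map_smul, ← Coh.mk_smul _ hz (by rw [map_smul, hz, smul_zero])]
    exact Coh.mk_congr (Subtype.ext e) _
  refine mg_hm (grd_congr (grd_sum (Finset.range (d + d + 1)) fun k _ =>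
    (g.comp (hd (k : ℕ)) hw).smul ((n * (k : ℕ)).negOnePow : ℂ)) (zero_add s) fun x => ?_)
  rw [hm_cl hy h0, ← prH_sum x, map_sum, LinearMap.sum_apply, prH_sum]
  refine Finset.sum_congr rfl fun k _ => ?_
  obtain ⟨z, hz, rfl⟩ := Coh.ind x
  rw [LinearMap.smul_apply, LinearMap.comp_apply, prH_mk]
  exact key _ _ _ (wd_comm hy (pj_mem k z.1))

theorem grd_pr' (hd : ∀ k, Grd w w 0 (prH d univ k)) (m : ℤ) :
    Grd (wT w) (wT w) 0 (P275S.KG.pr m) :=
  grd_adj (s := 0) (hd ((d + d : ℕ) - m)) (pd_pr (by ring))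

variable (d) in
include d in
theorem ce_even {α : H ℂ (TopCat.of M)} (h : α ∈ Hd ℂ (TopCat.of M) n) (hn : Even n) : Ce α :=
  haveI := nice (d := d) (M := M)
  P275S.commute_of_even h hn

variable {N : Type} [TopologicalSpace N] [ChartedSpace (Cm d) N] [IsManifold 𝓘(ℂ, Cm d) ω N]
  [T2Space N] [SecondCountableTopology N] {t : M → N} {t' : N → M}

/-- the pull-back by an isomorphism is the Gysin map of the inverse -/
theorem pd_iso (h : HolM d d t) (h' : HolM d d t') (e : ∀ z, t (t' z) = z) (e' : ∀ z, t' (t z) = z)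
    (a : Act (univ : Set M) univ (pb (smo_of_hol h'))) (α : H ℂ (TopCat.of N)) (x : Hc d univ) :
    pd d M (P275S.pb (tm (smo_of_hol h)) α) x = pd d N α (a.map x) := by
  have o : OE d t := ⟨smo_of_hol h, LeftInverse.injective e',
    fun x => ⟨t', e' x, smA_of_hol (h'.at _), .of_forall e⟩⟩
  rw [pd_ext o (ori_of_imm h fun x => .of_comp (h'.at _) (h.at x)
    ((imm_id x).cng (.of_forall fun z => (e' z).symm))), Act.map_congr _ a fun u _ => o.ext_eq
      (fun x hx => (hx ⟨_, e x⟩).elim) ?_]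
  exact (pb_pb _ _ smo_id e' u).trans (pb_id u)

end man

variable (W : WF) {b b' d d' D D' : ℕ} {B : Mn b} {B' : Mn b'} {c : Cv B} {c' : Cv B'} {M : Vr d}
  {M' : Vr d'}

/-- the weights on the cohomology of the total space -/
def wH (F : Fl c M D) : ℕ → Module.End ℂ (H ℂ (TopCat.of F.T.X)) := wT (W.w F)

theorem gr_wH (F : Fl c M D) : IsGr (wH W F) := gr_wT (W.gr F)

theorem grd_pr (F : Fl c M D) (m : ℤ) : Grd (wH W F) (wH W F) 0 (P275S.KG.pr m) :=
  grd_pr' (W.deg F) m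

variable {β : B'.X → B.X} {r : c'.ι → c.ι} {F' : Fl c' M' D'} {F : Fl c M D}
  {f : c'.ι → M'.X → M.X} {t : F'.T.X → F.T.X}

/-- proper pull-back with compact supports -/
theorem grd_pull (h : Hm β r F' F f t) (hβ : IsProperMap β) (hf : ∀ i, IsProperMap (f i))
    {ht : Smo D' D t} (a : Act univ univ (pb ht)) : Grd (W.w F) (W.w F') 0 a.map := by
  have e : ∀ u, wd (pb ht u) (pb (smo_of_hol F'.hq) (one b' B'.X)) = pb ht u := fun u => by
    rw [pb_one, wd_one]
  rw [a.map_congr (act_rwd ht (by rw [pb_one, dd_one]) fun u hu => (e u).symm ▸ a.mem u hu)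
    fun u _ => (e u).symm]
  exact W.pull h hf (smo_of_hol h.hβ) ht _ _ dd_one
    (fun u hu => wd_Ac_left ((act_pb _ hβ).mem u hu) _) _

/-- **Gysin maps** -/
theorem grd_gys (h : Hm β r F' F f t) (hβ : IsProperMap β) (hf : ∀ i, IsProperMap (f i))
    {ht : Smo D' D t} (a : Act univ univ (pb ht)) : Grd (wH W F') (wH W F) 0 (gys a) :=
  grd_adj (s := 0) (grd_pull W h hβ hf a) (pd_gys a)

/-- isomorphisms -/
theorem grd_iso {F' : Fl c' M' D} {t : F'.T.X → F.T.X} (h : HolM D D t) {β' r' f' t'}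
    (h' : Hm β' r' F F' f' t') (hβ : IsProperMap β') (hf : ∀ i, IsProperMap (f' i))
    (e : ∀ z, t (t' z) = z) (e' : ∀ z, t' (t z) = z) :
    Grd (wH W F) (wH W F') 0 (P275S.pb (tm (smo_of_hol h))).toLinearMap :=
  have a := act_pb h'.smo (h'.proper hβ hf)
  grd_adj (s := 0) (grd_pull W h' hβ hf a) (pd_iso h h'.hol e e' a)

variable (F)

theorem hm_id : Hm0 F F (fun _ y => y) fun z => z :=
  ⟨holM_id, fun _ _ h => h, fun _ => .id _, fun _ => rfl, fun _ _ _ => rfl⟩

/-- classes of degree zero -/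
theorem mg_zero (hc : ∀ i, IsPreconnected (c.V i)) {α : H ℂ (TopCat.of F.T.X)}
    (h : α ∈ Hd ℂ (TopCat.of F.T.X) 0) : MG (wH W F) 0 α := by
  obtain ⟨y, hy, h0, rfl⟩ := cl_surj (d := D) h
  have a : Act univ univ (wd y) := act_wd h0 (P275KU.pr_even hy Even.zero)
  refine mg_wd (s := 0) hy h0 a ?_
  have := W.lc F hc _ (lc_vf hy h0) (smC_vf hy)
  rw [fn_vf hy] at this
  exact this a

/-- classes of the base -/
theorem mg_base (hq : Smo D b F.q) (α : H ℂ (TopCat.of B.X)) :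
    MG (wH W F) 0 (P275S.pb (tm hq) α) := by
  refine H_ind (d := b) (P := fun α => MG (wH W F) 0 (P275S.pb (tm hq) α))
    (grd_congr Grd.zero rfl fun x => by simp)
    (fun v w h1 h2 => (map_add (P275S.pb (tm hq)) v w).symm ▸ h1.add h2) (fun n y hy h0 => ?_) α
  have h1 := pb_Zf hq ⟨y, h0⟩
  have a := act_rwd smo_id h1 fun u hu => wd_Ac_left ((pb_id u).symm ▸ hu) _
  rw [← cl_pb]
  exact mg_rwd (s := 0) (W.gr F) (W.deg F) (pb_Dg _ hy) h1 a (W.pull (hm_id F)
    (fun _ => isProperMap_id) smo_id smo_id hq y h0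
    (fun u hu => wd_Ac_left ((pb_id u).symm ▸ hu) _) a)

/-- classes of type `(s, s)` which come from a compact Kaehler manifold -/
theorem mg_hyp {m : ℕ} (Y : Mf m) (hY : Y.Kah) {k₀ k}
    (h : ∀ i, Alg M.cp (Cp.self Y hY) (k₀ i)) (hi : F.Inv k₀ k) {s : ℕ} (hs : Even s)
    {y : SF m Y.X} (hy : y ∈ Dg m Y.X s) (h1 : del m Y.X y = 0) (h2 : dlb m Y.X y = 0)
    (h0 : dd m Y.X y = 0) (hk : Smo D m k) :
    MG (wH W F) (-s) (P275S.pb (tm hk) (cl s ⟨y, h0⟩)) := by
  have h3 := pb_Zf hk ⟨y, h0⟩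
  have a : Act univ univ (wd (pb hk y)) :=
    act_wd h3 (P275KU.pr_even (pb_Dg _ hy) hs.natCast)
  rw [← cl_pb]
  exact mg_wd (pb_Dg _ hy) h3 a (W.hyp F Y hY h hi s y hy h1 h2 hk a)

end Vale.Agent.P275TB
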